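import Vale.Agent.P160.Main

/-! # P160: the asymptotic form of the lower bound -/

namespace SymSign

open Filter

theorem asym (ε : ℝ) (hε : 0 < ε) :
    ∃ n₀ : ℕ, ∀ n : ℕ, n₀ ≤ n → (1 - ε) * ((n : ℝ) ^ 2 / 2 ^ n) ≤ q n := by
  have h1 : Tendsto (fun n : ℕ => (n : ℝ) ^ 2 / (2 : ℝ) ^ n) atTop (nhds 0) :=
    tendsto_pow_const_div_const_pow_of_one_lt 2 (by norm_num)
  have h2 : Tendsto (fun n : ℕ => 1 / (n : ℝ)) atTop (nhds 0) := tendsto_one_div_atTop_nhds_zero_nat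
  have h3 := (h1.eventually (gt_mem_nhds (half_pos hε))).and
    ((h2.eventually (gt_mem_nhds (half_pos hε))).and (eventually_ge_atTop 1))
  obtain ⟨n₀, hn₀⟩ := eventually_atTop.1 h3
  refine ⟨n₀, fun n hn => ?_⟩
  obtain ⟨ha, hb, h1n⟩ := hn₀ n hn
  refine le_trans ?_ (main n h1n)
  have hn0 : (0 : ℝ) < n := by exact_mod_cast h1n
  have e1 : ((n * (n - 1) : ℕ) : ℝ) = (n : ℝ) * ((n : ℝ) - 1) := by
    push_cast [Nat.cast_sub h1n]
    ring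
  rw [e1]
  have hp : (0 : ℝ) < 2 ^ n := by positivity
  set Q : ℝ := (n : ℝ) ^ 2 / 2 ^ n with hQ
  have hQ0 : 0 ≤ Q := by positivity
  set a : ℝ := 1 / (n : ℝ) with haa
  have ha0 : 0 < a := by positivity
  have e2 : (n : ℝ) * ((n : ℝ) - 1) / 2 ^ n = Q * (1 - a) := by
    rw [hQ, haa]
    field_simp
  rw [e2]
  have ha1 : 0 ≤ 1 - a := by
    rw [haa, sub_nonneg, div_le_one hn0]
    exact_mod_cast h1n
  have h4 : (1 - ε) ≤ (1 - a) * (1 - Q * (1 - a)) := by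
    nlinarith [mul_nonneg hQ0 ha1, mul_nonneg hQ0 ha0.le, mul_nonneg (mul_nonneg hQ0 ha1) ha0.le]
  calc (1 - ε) * Q ≤ (1 - a) * (1 - Q * (1 - a)) * Q := mul_le_mul_of_nonneg_right h4 hQ0
    _ = Q * (1 - a) - (Q * (1 - a)) ^ 2 := by ring

end SymSign
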