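import Vale.Agent.P160.Defs

/-! # P160: counting -/

namespace SymSign

open Finset
open scoped Classical

variable {n : ℕ}

/-- row `x` is `±` row `y` (`s` is the sign) -/
def Ev (x y : Fin n) (s : Bool) (ω : Sym2 (Fin n) → Bool) : Prop :=
  ∀ m, ω s(x, m) = xor s (ω s(y, m))

theorem Ev_symm {x y : Fin n} {s : Bool} {ω : Sym2 (Fin n) → Bool} (h : Ev x y s ω) :
    Ev y x s ω := by
  intro m
  rw [h m, ← Bool.xor_assoc, Bool.xor_self, Bool.false_xor]

theorem det_zero_of_Ev {x y : Fin n} (hxy : x ≠ y) {s : Bool} {ω : Sym2 (Fin n) → Bool}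
    (h : Ev x y s ω) : (A ω).det = 0 := by
  rw [← Matrix.exists_mulVec_eq_zero_iff]
  refine ⟨fun k => if k = x then 1 else if k = y then (if s then 1 else -1) else 0, ?_, ?_⟩
  · intro h0
    have := congrFun h0 x
    simp at this
  · funext k
    unfold Matrix.mulVec dotProduct
    have e1 : ∀ j, A ω k j * (if j = x then (1 : ℝ) else if j = y then (if s then 1 else -1) else 0)
        = (if j = x then A ω k x else 0)
          + (if j = y then A ω k y * (if s then 1 else -1) else 0) := by
      intro j
      by_cases h1 : j = x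
      · subst h1
        rw [if_pos rfl, if_pos rfl, if_neg hxy]
        ring
      · by_cases h2 : j = y
        · subst h2
          rw [if_neg h1, if_pos rfl, if_neg h1, if_pos rfl]
          ring
        · rw [if_neg h1, if_neg h2, if_neg h1, if_neg h2]
          ring
    rw [sum_congr rfl fun j _ => e1 j, sum_add_distrib, sum_ite_eq', sum_ite_eq',
      if_pos (mem_univ x), if_pos (mem_univ y)]
    have h3 := h k
    rw [Sym2.eq_swap (a := x), Sym2.eq_swap (a := y)] at h3
    unfold A
    simp only [Matrix.of_apply, Pi.zero_apply]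
    rw [h3]
    cases s <;> cases ω s(k, y) <;> simp

/-- functions vanishing on `D` -/
noncomputable def Z (D : Finset (Sym2 (Fin n))) : Finset (Sym2 (Fin n) → Bool) :=
  univ.filter fun ω => ∀ e ∈ D, ω e = false

theorem card_Z (D : Finset (Sym2 (Fin n))) :
    (Z D).card = 2 ^ (Fintype.card (Sym2 (Fin n)) - D.card) := by
  have h : Z D = Fintype.piFinset (fun e => if e ∈ D then ({false} : Finset Bool) else univ) := by
    ext ω
    unfold Z
    rw [mem_filter, Fintype.mem_piFinset]
    constructor
    · rintro ⟨_, h⟩ e
      by_cases he : e ∈ D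
      · rw [if_pos he, mem_singleton]
        exact h e he
      · rw [if_neg he]
        exact mem_univ _
    · intro h
      refine ⟨mem_univ _, fun e he => ?_⟩
      have := h e
      rw [if_pos he, mem_singleton] at this
      exact this
  rw [h, Fintype.card_piFinset]
  have h2 : ∀ e : Sym2 (Fin n), (if e ∈ D then ({false} : Finset Bool) else univ).card
      = if e ∈ D then 1 else 2 := by
    intro e
    split_ifs
    · simp
    · simp
  rw [prod_congr rfl fun e _ => h2 e, prod_ite]
  simp only [prod_const_one, one_mul, prod_const]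
  congr 1
  have h3 : (univ.filter fun e => e ∉ D) = Dᶜ := by
    ext e
    simp
  rw [h3, card_compl]

/-- pairs containing `x` -/
noncomputable def Dx (x : Fin n) : Finset (Sym2 (Fin n)) := univ.filter fun e => x ∈ e

theorem Dx_eq (x : Fin n) : Dx x = univ.image (fun m => s(x, m)) := by
  ext e
  unfold Dx
  rw [mem_filter, mem_image]
  constructor
  · rintro ⟨_, h⟩
    obtain ⟨m, rfl⟩ := Sym2.mem_iff_exists.1 h
    exact ⟨m, mem_univ _, rfl⟩
  · rintro ⟨m, _, rfl⟩
    exact ⟨mem_univ _, Sym2.mem_mk_left x m⟩

theorem card_Dx (x : Fin n) : (Dx x).card = n := by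
  rw [Dx_eq, card_image_of_injective]
  · simp
  · intro a b h
    have := Sym2.congr_right.1 h
    exact this

theorem card_Dxy {x y : Fin n} (hxy : x ≠ y) : (Dx x ∪ Dx y).card = 2 * n - 1 := by
  have h1 : Dx x ∩ Dx y = {s(x, y)} := by
    ext e
    unfold Dx
    rw [mem_inter, mem_filter, mem_filter, mem_singleton]
    constructor
    · rintro ⟨⟨_, h1⟩, ⟨_, h2⟩⟩
      exact (Sym2.mem_and_mem_iff hxy).1 ⟨h1, h2⟩
    · rintro rfl
      exact ⟨⟨mem_univ _, Sym2.mem_mk_left x y⟩, ⟨mem_univ _, Sym2.mem_mk_right x y⟩⟩
  have h2 := card_union_add_card_inter (Dx x) (Dx y)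
  rw [h1, card_singleton, card_Dx, card_Dx] at h2
  omega

/-- second order: two relations determine the rows `x` and `y` -/
theorem card_two {x y x' y' : Fin n} (hxy : x ≠ y) (h1 : x' ≠ x) (h2 : x' ≠ y) (h3 : y' ≠ x)
    (h4 : y' ≠ y) (s t : Bool) :
    (univ.filter fun ω : Sym2 (Fin n) → Bool => Ev x x' s ω ∧ Ev y y' t ω).card
      ≤ 2 ^ (Fintype.card (Sym2 (Fin n)) - (2 * n - 1)) := by
  rw [← card_Dxy hxy, ← card_Z]
  refine card_le_card_of_injOn (fun ω e => if e ∈ Dx x ∪ Dx y then false else ω e) ?_ ?_
  · intro ω _
    unfold Z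
    rw [Finset.mem_coe, mem_filter]
    refine ⟨mem_univ _, fun e he => ?_⟩
    simp only [if_pos he]
  · intro ω hω ω' hω' heq
    rw [Finset.mem_coe, mem_filter] at hω hω'
    obtain ⟨_, e1, e2⟩ := hω
    obtain ⟨_, e1', e2'⟩ := hω'
    have hoff : ∀ a b : Fin n, a ≠ x → a ≠ y → b ≠ x → b ≠ y → ω s(a, b) = ω' s(a, b) := by
      intro a b ha ha' hb hb'
      have hn : s(a, b) ∉ Dx x ∪ Dx y := by
        unfold Dx
        rw [mem_union, mem_filter, mem_filter, Sym2.mem_iff, Sym2.mem_iff]
        rintro (⟨_, h | h⟩ | ⟨_, h | h⟩)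
        · exact ha h.symm
        · exact hb h.symm
        · exact ha' h.symm
        · exact hb' h.symm
      have := congrFun heq s(a, b)
      simp only [if_neg hn] at this
      exact this
    -- row x' against everything
    have hx : ∀ m, m ≠ x → m ≠ y → ω s(x, m) = ω' s(x, m) := by
      intro m hm hm'
      rw [e1 m, e1' m, hoff x' m h1 h2 hm hm']
    have hy : ∀ m, m ≠ x → m ≠ y → ω s(y, m) = ω' s(y, m) := by
      intro m hm hm'
      rw [e2 m, e2' m, hoff y' m h3 h4 hm hm']
    have hxx : ω s(x, x) = ω' s(x, x) := by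
      rw [e1 x, e1' x, Sym2.eq_swap (a := x'), hx x' h1 h2]
    have hyy : ω s(y, y) = ω' s(y, y) := by
      rw [e2 y, e2' y, Sym2.eq_swap (a := y'), hy y' h3 h4]
    have hxy' : ω s(x, y) = ω' s(x, y) := by
      rw [e1 y, e1' y, Sym2.eq_swap (a := x'), hy x' h1 h2]
    funext e
    induction e using Sym2.ind with
    | _ a b =>
      by_cases ha : a = x
      · subst ha
        by_cases hb : b = a
        · subst hb
          exact hxx
        · by_cases hb' : b = y
          · subst hb'
            exact hxy'
          · exact hx b hb hb'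
      · by_cases ha' : a = y
        · subst ha'
          by_cases hb : b = x
          · subst hb
            rw [Sym2.eq_swap]
            exact hxy'
          · by_cases hb' : b = a
            · subst hb'
              exact hyy
            · exact hy b hb hb'
        · by_cases hb : b = x
          · subst hb
            rw [Sym2.eq_swap]
            exact hx a ha ha'
          · by_cases hb' : b = y
            · subst hb'
              rw [Sym2.eq_swap]
              exact hy a ha ha'
            · exact hoff a b ha ha' hb hb'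

/-- first order -/
theorem card_one {x y : Fin n} (hxy : x ≠ y) (s : Bool) :
    2 ^ (Fintype.card (Sym2 (Fin n)) - n)
      ≤ (univ.filter fun ω : Sym2 (Fin n) → Bool => Ev x y s ω).card := by
  have hc := card_Z (Dx x)
  rw [card_Dx] at hc
  rw [← hc]
  -- sign of an unordered pair and the substitution x ↦ y
  let σ : Fin n → Fin n := fun m => if m = x then y else m
  let sg : Sym2 (Fin n) → Bool := Sym2.lift ⟨fun a b => xor (s && decide (a = x))
    (s && decide (b = x)), fun a b => Bool.xor_comm _ _⟩
  have hsg : ∀ a b, sg s(a, b) = xor (s && decide (a = x)) (s && decide (b = x)) :=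
    fun a b => rfl
  refine card_le_card_of_injOn (fun ω e => xor (sg e) (ω (e.map σ))) ?_ ?_
  · intro ω _
    rw [Finset.mem_coe, mem_filter]
    refine ⟨mem_univ _, fun m => ?_⟩
    simp only [Sym2.map_mk, hsg]
    have h1 : σ x = y := by simp [σ]
    have h2 : σ y = y := by simp [σ]
    have h3 : decide (y = x) = false := by simp [hxy.symm]
    rw [h1, h2, h3]
    simp only [decide_true, Bool.and_true, Bool.and_false, Bool.false_xor, Bool.xor_assoc]
  · intro ω hω ω' hω' heq
    unfold Z at hω hω'
    rw [Finset.mem_coe, mem_filter] at hω hω'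
    funext e
    by_cases he : x ∈ e
    · have hD : e ∈ Dx x := by
        unfold Dx
        rw [mem_filter]
        exact ⟨mem_univ _, he⟩
      rw [hω.2 e hD, hω'.2 e hD]
    · have h := congrFun heq e
      simp only at h
      have hm : e.map σ = e := by
        induction e using Sym2.ind with
        | _ a b =>
          rw [Sym2.mem_iff, not_or] at he
          have ha : σ a = a := by
            simp only [σ]
            rw [if_neg (Ne.symm he.1)]
          have hb : σ b = b := by
            simp only [σ]
            rw [if_neg (Ne.symm he.2)]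
          rw [Sym2.map_mk, ha, hb]
      rw [hm] at h
      exact Bool.xor_right_inj.1 h

end SymSign
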