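import Mathlib

/-! # P160: random symmetric sign matrices (definitions) -/

namespace SymSign

open Finset

/-- The symmetric sign matrix with signs `ω`: the entries at `(i,j)` and `(j,i)` are `1` if
`ω s(i,j)` is true and `-1` otherwise. The set `Sym2 (Fin n)` of unordered pairs (with `i = j`
allowed) indexes the entries on and above the diagonal. -/
def A {n : ℕ} (ω : Sym2 (Fin n) → Bool) : Matrix (Fin n) (Fin n) ℝ :=
  Matrix.of fun i j => if ω s(i, j) then 1 else -1

open scoped Classical in
/-- The singularity probability `q n = P(det A = 0)` for uniform independent signs: the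
proportion of the sign choices `ω` with `det (A ω) = 0`. -/
noncomputable def q (n : ℕ) : ℝ :=
  ((univ.filter fun ω : Sym2 (Fin n) → Bool => (A ω).det = 0).card : ℝ) /
    (Fintype.card (Sym2 (Fin n) → Bool) : ℝ)

end SymSign
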