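import Vale.Agent.P160.Count

/-! # P160: Bonferroni -/

namespace SymSign

open Finset
open scoped Classical

variable {n : ℕ}

/-- index set: pairs `i < j` with a sign -/
noncomputable def Pr (n : ℕ) : Finset ((Fin n × Fin n) × Bool) :=
  univ.filter fun p => p.1.1 < p.1.2

/-- the event of an index -/
def EvP (p : (Fin n × Fin n) × Bool) (ω : Sym2 (Fin n) → Bool) : Prop := Ev p.1.1 p.1.2 p.2 ω

theorem card_Pr (n : ℕ) : (Pr n).card = n * (n - 1) := by
  have h1 : Pr n = (univ.filter fun p : Fin n × Fin n => p.1 < p.2) ×ˢ (univ : Finset Bool) := by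
    ext p
    simp [Pr]
  rw [h1, card_product, card_univ, Fintype.card_bool]
  have h2 : (univ.filter fun p : Fin n × Fin n => p.1 < p.2).card
      = (univ.filter fun p : Fin n × Fin n => p.2 < p.1).card := by
    refine card_bij (fun p _ => (p.2, p.1)) ?_ ?_ ?_
    · intro p hp
      rw [mem_filter] at hp ⊢
      exact ⟨mem_univ _, hp.2⟩
    · intro p _ p' _ h
      rw [Prod.mk.injEq] at h
      exact Prod.ext h.2 h.1
    · intro p hp
      rw [mem_filter] at hp
      exact ⟨(p.2, p.1), mem_filter.2 ⟨mem_univ _, hp.2⟩, rfl⟩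
  have h3 : (univ.filter fun p : Fin n × Fin n => p.1 < p.2).card
      + (univ.filter fun p : Fin n × Fin n => p.2 < p.1).card = n * (n - 1) := by
    rw [← card_union_of_disjoint]
    · have h4 : (univ.filter fun p : Fin n × Fin n => p.1 < p.2)
          ∪ (univ.filter fun p : Fin n × Fin n => p.2 < p.1) = (univ : Finset (Fin n)).offDiag := by
        ext p
        rw [mem_union, mem_filter, mem_filter, mem_offDiag]
        constructor
        · rintro (⟨_, h⟩ | ⟨_, h⟩)
          · exact ⟨mem_univ _, mem_univ _, ne_of_lt h⟩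
          · exact ⟨mem_univ _, mem_univ _, ne_of_gt h⟩
        · rintro ⟨_, _, h⟩
          rcases lt_or_gt_of_ne h with h | h
          · exact Or.inl ⟨mem_univ _, h⟩
          · exact Or.inr ⟨mem_univ _, h⟩
      rw [h4, offDiag_card, card_univ, Fintype.card_fin]
      exact (Nat.mul_sub_one n n).symm
    · rw [disjoint_left]
      intro p hp hp'
      rw [mem_filter] at hp hp'
      exact lt_asymm hp.2 hp'.2
  omega

/-- two distinct events -/
theorem card_inter_le {p p' : (Fin n × Fin n) × Bool} (hp : p ∈ Pr n) (hp' : p' ∈ Pr n)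
    (hne : p ≠ p') :
    (univ.filter fun ω : Sym2 (Fin n) → Bool => EvP p ω ∧ EvP p' ω).card
      ≤ 2 ^ (Fintype.card (Sym2 (Fin n)) - (2 * n - 1)) := by
  obtain ⟨⟨i, j⟩, s⟩ := p
  obtain ⟨⟨k, l⟩, t⟩ := p'
  unfold Pr at hp hp'
  rw [mem_filter] at hp hp'
  have hij : i < j := hp.2
  have hkl : k < l := hp'.2
  unfold EvP
  simp only
  have key : ∀ (x y x' y' : Fin n), x ≠ y → x' ≠ x → x' ≠ y → y' ≠ x → y' ≠ y →
      (∀ ω : Sym2 (Fin n) → Bool, Ev i j s ω → Ev x x' s ω) →
      (∀ ω : Sym2 (Fin n) → Bool, Ev k l t ω → Ev y y' t ω) →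
      (univ.filter fun ω : Sym2 (Fin n) → Bool => Ev i j s ω ∧ Ev k l t ω).card
        ≤ 2 ^ (Fintype.card (Sym2 (Fin n)) - (2 * n - 1)) := by
    intro x y x' y' h1 h2 h3 h4 h5 h6 h7
    refine le_trans (card_le_card ?_) (card_two h1 h2 h3 h4 h5 s t)
    intro ω hω
    rw [mem_filter] at hω ⊢
    exact ⟨mem_univ _, h6 ω hω.2.1, h7 ω hω.2.2⟩
  have sij : ∀ ω : Sym2 (Fin n) → Bool, Ev i j s ω → Ev j i s ω := fun ω h => Ev_symm h
  have skl : ∀ ω : Sym2 (Fin n) → Bool, Ev k l t ω → Ev l k t ω := fun ω h => Ev_symm h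
  have nij := ne_of_lt hij
  have nkl := ne_of_lt hkl
  by_cases hik : i = k
  · subst hik
    by_cases hjl : j = l
    · subst hjl
      -- same pair, different signs
      have hst : s ≠ t := fun h => hne (by rw [h])
      have hem : (univ.filter fun ω : Sym2 (Fin n) → Bool => Ev i j s ω ∧ Ev i j t ω) = ∅ := by
        rw [filter_eq_empty_iff]
        rintro ω _ ⟨h1, h2⟩
        have h3 := (h1 i).symm.trans (h2 i)
        exact hst (Bool.xor_left_inj.1 h3)
      rw [hem, card_empty]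
      exact Nat.zero_le _
    · -- i = k : x = j, y = l, bases i
      exact key j l i i hjl nij nkl nij nkl sij skl
  · by_cases hjl : j = l
    · subst hjl
      -- x = i, y = k, bases j
      exact key i k j j hik nij.symm nkl.symm nij.symm nkl.symm (fun _ h => h) (fun _ h => h)
    · by_cases hil : i = l
      · subst hil
        -- pairs (i,j), (k,i): x = j, y = k
        have hjk : j ≠ k := ne_of_gt (hkl.trans hij)
        exact key j k i i hjk nij (Ne.symm nkl) nij (Ne.symm nkl) sij (fun _ h => h)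
      · by_cases hjk : j = k
        · subst hjk
          -- pairs (i,j), (j,l): x = i, y = l, bases j
          exact key i l j j hil nij.symm hjl nij.symm hjl (fun _ h => h) skl
        · -- disjoint: x = i, y = k, bases j, l
          exact key i k j l hik nij.symm hjk (Ne.symm hil) nkl.symm (fun _ h => h) (fun _ h => h)

theorem bonf (n : ℕ) :
    2 * ∑ p ∈ Pr n, ((univ.filter fun ω : Sym2 (Fin n) → Bool => EvP p ω).card : ℝ)
      - ∑ p ∈ Pr n, ∑ p' ∈ (Pr n).erase p,
        ((univ.filter fun ω : Sym2 (Fin n) → Bool => EvP p ω ∧ EvP p' ω).card : ℝ)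
      ≤ 2 * ((univ.filter fun ω : Sym2 (Fin n) → Bool => (A ω).det = 0).card : ℝ) := by
  -- counting function
  set T : (Sym2 (Fin n) → Bool) → ℕ := fun ω => ((Pr n).filter fun p => EvP p ω).card with hT
  have h1 : ∑ p ∈ Pr n, ((univ.filter fun ω : Sym2 (Fin n) → Bool => EvP p ω).card : ℝ)
      = ∑ ω, (T ω : ℝ) := by
    rw [hT]
    simp only [card_filter, Nat.cast_sum]
    rw [sum_comm]
  have h2 : ∑ p ∈ Pr n, ∑ p' ∈ (Pr n).erase p,
        ((univ.filter fun ω : Sym2 (Fin n) → Bool => EvP p ω ∧ EvP p' ω).card : ℝ)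
      = ∑ ω, ((T ω : ℝ) ^ 2 - T ω) := by
    have e1 : ∀ ω, (T ω : ℝ) ^ 2 - T ω
        = ∑ p ∈ Pr n, ∑ p' ∈ (Pr n).erase p, if EvP p ω ∧ EvP p' ω then (1 : ℝ) else 0 := by
      intro ω
      have e2 : (T ω : ℝ) = ∑ p ∈ Pr n, if EvP p ω then (1 : ℝ) else 0 := by
        rw [hT]
        simp only [card_filter, Nat.cast_sum, Nat.cast_ite, Nat.cast_one, Nat.cast_zero]
      have e3 : (T ω : ℝ) ^ 2 = ∑ p ∈ Pr n, ∑ p' ∈ Pr n, if EvP p ω ∧ EvP p' ω then (1 : ℝ) else 0 := by
        rw [e2, sq, sum_mul_sum]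
        apply sum_congr rfl
        intro p _
        apply sum_congr rfl
        intro p' _
        by_cases a : EvP p ω <;> by_cases b : EvP p' ω <;> simp [a, b]
      rw [e3, e2, ← sum_sub_distrib]
      apply sum_congr rfl
      intro p hp
      rw [← add_sum_erase (Pr n) _ hp]
      by_cases a : EvP p ω
      · simp [a]
      · simp [a]
    rw [sum_congr rfl fun ω _ => e1 ω, sum_comm]
    apply sum_congr rfl
    intro p _
    rw [sum_comm]
    apply sum_congr rfl
    intro p' _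
    simp only [card_filter, Nat.cast_sum, Nat.cast_ite, Nat.cast_one, Nat.cast_zero]
  have h3 : ((univ.filter fun ω : Sym2 (Fin n) → Bool => (A ω).det = 0).card : ℝ)
      = ∑ ω : Sym2 (Fin n) → Bool, if (A ω).det = 0 then (1 : ℝ) else 0 := by
    simp only [card_filter, Nat.cast_sum, Nat.cast_ite, Nat.cast_one, Nat.cast_zero]
  rw [h1, h2, h3, mul_sum, mul_sum, ← sum_sub_distrib]
  apply sum_le_sum
  intro ω _
  by_cases hd : (A ω).det = 0
  · rw [if_pos hd]
    have h4 : ((T ω : ℝ) - 1) * ((T ω : ℝ) - 2) ≥ 0 := by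
      rcases Nat.lt_or_ge (T ω) 2 with h | h
      · interval_cases (T ω) <;> norm_num
      · have : (2 : ℝ) ≤ T ω := by exact_mod_cast h
        nlinarith
    nlinarith
  · rw [if_neg hd]
    have h5 : T ω = 0 := by
      rw [hT]
      simp only
      rw [card_eq_zero, filter_eq_empty_iff]
      intro p hp hE
      unfold Pr at hp
      rw [mem_filter] at hp
      exact hd (det_zero_of_Ev (ne_of_lt hp.2) hE)
    rw [h5]
    simp

theorem main (n : ℕ) (hn : 1 ≤ n) :
    ((n * (n - 1) : ℕ) : ℝ) / 2 ^ n - (((n * (n - 1) : ℕ) : ℝ) / 2 ^ n) ^ 2 ≤ q n := by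
  set N := Fintype.card (Sym2 (Fin n)) with hN
  set K := n * (n - 1) with hK
  rcases Nat.lt_or_ge n 2 with h2 | h2
  · have : n = 1 := by omega
    subst this
    have hK0 : K = 0 := by simp [hK]
    rw [hK0]
    simp only [Nat.cast_zero, zero_div]
    have : (0 : ℝ) ≤ q 1 := by unfold q; positivity
    simpa using this
  have hNn : 2 * n - 1 ≤ N := by
    rw [hN]
    have h01 : (⟨0, by omega⟩ : Fin n) ≠ ⟨1, by omega⟩ := by simp
    rw [← card_Dxy h01]
    exact card_le_univ _
  have hpos : (0 : ℝ) < 2 ^ N := by positivity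
  have hΩ : (Fintype.card (Sym2 (Fin n) → Bool) : ℝ) = 2 ^ N := by
    rw [Fintype.card_fun, Fintype.card_bool]
    push_cast
    rfl
  have hb := bonf n
  have l1 : (K : ℝ) * (2 ^ N / 2 ^ n)
      ≤ ∑ p ∈ Pr n, ((univ.filter fun ω : Sym2 (Fin n) → Bool => EvP p ω).card : ℝ) := by
    have e0 : (K : ℝ) = (((Pr n).card : ℕ) : ℝ) := by rw [card_Pr n]
    rw [e0, ← nsmul_eq_mul]
    apply card_nsmul_le_sum
    intro p hp
    unfold Pr at hp
    rw [mem_filter] at hp
    have h := card_one (ne_of_lt hp.2) p.2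
    have h' : ((2 ^ (N - n) : ℕ) : ℝ)
        ≤ ((univ.filter fun ω : Sym2 (Fin n) → Bool => EvP p ω).card : ℝ) := by exact_mod_cast h
    refine le_trans (le_of_eq ?_) h'
    push_cast
    rw [div_eq_iff (by positivity), ← pow_add]
    congr 1
    omega
  have l2 : ∑ p ∈ Pr n, ∑ p' ∈ (Pr n).erase p,
        ((univ.filter fun ω : Sym2 (Fin n) → Bool => EvP p ω ∧ EvP p' ω).card : ℝ)
      ≤ (K : ℝ) * ((K : ℝ) * (2 * 2 ^ N / (2 ^ n) ^ 2)) := by
    have hb2 : (0 : ℝ) ≤ 2 * 2 ^ N / (2 ^ n) ^ 2 := by positivity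
    have e1 : ∀ p ∈ Pr n, ∑ p' ∈ (Pr n).erase p,
        ((univ.filter fun ω : Sym2 (Fin n) → Bool => EvP p ω ∧ EvP p' ω).card : ℝ)
        ≤ (K : ℝ) * (2 * 2 ^ N / (2 ^ n) ^ 2) := by
      intro p hp
      have e2 : ∀ p' ∈ (Pr n).erase p,
          ((univ.filter fun ω : Sym2 (Fin n) → Bool => EvP p ω ∧ EvP p' ω).card : ℝ)
          ≤ 2 * 2 ^ N / (2 ^ n) ^ 2 := by
        intro p' hp'
        rw [mem_erase] at hp'
        have h := card_inter_le hp hp'.2 (Ne.symm hp'.1)
        have h' : ((univ.filter fun ω : Sym2 (Fin n) → Bool => EvP p ω ∧ EvP p' ω).card : ℝ)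
            ≤ ((2 ^ (N - (2 * n - 1)) : ℕ) : ℝ) := by exact_mod_cast h
        refine h'.trans (le_of_eq ?_)
        push_cast
        rw [eq_div_iff (by positivity), ← pow_mul, ← pow_add]
        have : N - (2 * n - 1) + n * 2 = N + 1 := by omega
        rw [this, pow_succ]
        ring
      have e3 := sum_le_card_nsmul _ _ _ e2
      rw [nsmul_eq_mul] at e3
      refine e3.trans (mul_le_mul_of_nonneg_right ?_ hb2)
      have : ((Pr n).erase p).card ≤ K := by
        have e9 : (Pr n).card = K := card_Pr n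
        rw [← e9]
        exact card_le_card (erase_subset _ _)
      exact_mod_cast this
    have e4 := sum_le_card_nsmul _ _ _ e1
    rw [nsmul_eq_mul, card_Pr n] at e4
    exact e4
  have l3 : 2 * ((K : ℝ) * (2 ^ N / 2 ^ n)) - (K : ℝ) * ((K : ℝ) * (2 * 2 ^ N / (2 ^ n) ^ 2))
      ≤ 2 * ((univ.filter fun ω : Sym2 (Fin n) → Bool => (A ω).det = 0).card : ℝ) := by
    linarith
  unfold q
  rw [hΩ, le_div_iff₀ hpos]
  have e5 : ((K : ℝ) / 2 ^ n - ((K : ℝ) / 2 ^ n) ^ 2) * 2 ^ N
      = (2 * ((K : ℝ) * (2 ^ N / 2 ^ n)) - (K : ℝ) * ((K : ℝ) * (2 * 2 ^ N / (2 ^ n) ^ 2))) / 2 := by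
    field_simp
  rw [e5]
  linarith

end SymSign
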